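import Mathlib

/-!
# The cut projector

`S = k[x_a : a ∈ V]`.  A finite family of linear forms `x_a - c` (framing, `tgt = none`) and
`x_a - x_b + m` (arrows).  For an equivalence relation `B` on `V ∪ {∞} = Option V` the product
`Y B` of all forms joining different classes, and the product `Dn B` of `(x_a - x_b)^n` over the
given pairs inside one class.

Main result `span_of_cut`: if `D * g` is in the ideal generated by the cut products
`Y (cutRel U)`, `U ≠ ∅`, then it is in the ideal generated by all `Y B * Dn B`, `B ≠ ⊤`.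
-/

open scoped Classical

namespace Vale.Agent.P291.H809

noncomputable section

variable {k : Type*} [CommRing k] {V : Type*}

/-- Substitution `x_a ↦ x_a + t` for `a ∈ U`. -/
def shift (k : Type*) [CommRing k] {V : Type*} (U : Finset V) :
    MvPolynomial V k →ₐ[k] Polynomial (MvPolynomial V k) :=
  MvPolynomial.aeval
    (fun a => Polynomial.C (MvPolynomial.X a) + if a ∈ U then Polynomial.X else 0)

theorem eval_shift (U : Finset V) (g : MvPolynomial V k) :
    (shift k U g).eval 0 = g := by
  have h : ((Polynomial.evalRingHom (0 : MvPolynomial V k)).comp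
      (shift k U).toRingHom) = RingHom.id _ := by
    apply MvPolynomial.ringHom_ext
    · intro r
      simp [shift, MvPolynomial.algebraMap_eq, Polynomial.algebraMap_apply]
    · intro a
      by_cases ha : a ∈ U <;> simp [shift, ha]
  exact congrArg (fun f => f g) h

/-- membership of a point of `V ∪ {∞}` in `U ⊆ V`. -/
def mem (U : Finset V) (x : Option V) : Prop := ∃ a ∈ U, x = some a

@[simp] theorem mem_none (U : Finset V) : ¬ mem U none := by
  rintro ⟨a, _, h⟩; cases h

@[simp] theorem mem_some (U : Finset V) (a : V) : mem U (some a) ↔ a ∈ U := by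
  constructor
  · rintro ⟨b, hb, h⟩; cases h; exact hb
  · intro h; exact ⟨a, h, rfl⟩

/-- The equivalence relation with classes `U` and its complement (which contains `∞`). -/
def cutRel (U : Finset V) : Setoid (Option V) where
  r x y := mem U x ↔ mem U y
  iseqv := ⟨fun _ => Iff.rfl, fun h => h.symm, fun h h' => h.trans h'⟩

theorem cutRel_ne_top {U : Finset V} (h : U.Nonempty) : cutRel U ≠ ⊤ := by
  obtain ⟨a, ha⟩ := h
  intro e
  have : (cutRel U).r (some a) none := by rw [e]; trivial
  have h2 : mem U (some a) ↔ mem U none := this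
  simp [ha] at h2

variable {ι κ : Type*} [Fintype ι] [Fintype κ]

/-- The data: forms and pairs. -/
structure Data (k V ι κ : Type*) where
  /-- first end of a form -/
  src : ι → V
  /-- second end of a form, `none` for a framing form -/
  tgt : ι → Option V
  /-- constant term of a form -/
  mass : ι → k
  /-- first element of a pair -/
  p1 : κ → V
  /-- second element of a pair -/
  p2 : κ → V
  /-- exponent of a pair -/
  ex : κ → ℕ

namespace Data

variable (Q : Data k V ι κ)

/-- the linear form -/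
def form (e : ι) : MvPolynomial V k :=
  MvPolynomial.X (Q.src e) - (Q.tgt e).elim 0 MvPolynomial.X + MvPolynomial.C (Q.mass e)

/-- the difference of a pair -/
def diff (p : κ) : MvPolynomial V k :=
  (MvPolynomial.X (Q.p1 p) - MvPolynomial.X (Q.p2 p)) ^ Q.ex p

/-- product of the forms joining different classes of `B` -/
def Y (B : Setoid (Option V)) : MvPolynomial V k :=
  ∏ e ∈ Finset.univ.filter (fun e => ¬ B.r (some (Q.src e)) (Q.tgt e)), Q.form e

/-- product of the differences inside the classes of `B` -/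
def Dn (B : Setoid (Option V)) : MvPolynomial V k :=
  ∏ p ∈ Finset.univ.filter (fun p => B.r (some (Q.p1 p)) (some (Q.p2 p))), Q.diff p

/-- signed form -/
def sform (U : Finset V) (e : ι) : MvPolynomial V k :=
  if Q.src e ∈ U then Q.form e else - Q.form e

/-- signed cut product, its shift is monic -/
def Ys (U : Finset V) : MvPolynomial V k :=
  ∏ e ∈ Finset.univ.filter (fun e => ¬ (cutRel U).r (some (Q.src e)) (Q.tgt e)), Q.sform U e

theorem shift_form (U : Finset V) (e : ι) :
    shift k U (Q.form e) = Polynomial.C (Q.form e)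
      + ((if Q.src e ∈ U then Polynomial.X else 0) - (if mem U (Q.tgt e) then Polynomial.X else 0)) := by
  unfold form
  rcases h : Q.tgt e with _ | b
  · simp only [Option.elim, sub_zero, map_add, mem_none, if_false]
    simp only [shift, MvPolynomial.aeval_X, MvPolynomial.aeval_C, MvPolynomial.algebraMap_eq,
      Polynomial.algebraMap_apply]
    ring
  · simp only [Option.elim, map_add, map_sub, mem_some]
    simp only [shift, MvPolynomial.aeval_X, MvPolynomial.aeval_C, MvPolynomial.algebraMap_eq,
      Polynomial.algebraMap_apply]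
    ring

theorem shift_form_of_rel {U : Finset V} {e : ι}
    (h : (cutRel U).r (some (Q.src e)) (Q.tgt e)) :
    shift k U (Q.form e) = Polynomial.C (Q.form e) := by
  have h' : Q.src e ∈ U ↔ mem U (Q.tgt e) := by simpa using (show mem U (some (Q.src e)) ↔ _ from h)
  rw [shift_form]
  by_cases h1 : Q.src e ∈ U
  · simp [h1, h'.1 h1]
  · have h2 : ¬ mem U (Q.tgt e) := fun h3 => h1 (h'.2 h3)
    simp [h1, h2]

theorem shift_sform_of_not_rel {U : Finset V} {e : ι}
    (h : ¬ (cutRel U).r (some (Q.src e)) (Q.tgt e)) :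
    shift k U (Q.sform U e) = Polynomial.X + Polynomial.C (Q.sform U e) := by
  have h' : ¬ (Q.src e ∈ U ↔ mem U (Q.tgt e)) := by
    intro h1; apply h; show mem U (some (Q.src e)) ↔ _; simpa using h1
  unfold sform
  by_cases h1 : Q.src e ∈ U
  · have h2 : ¬ mem U (Q.tgt e) := fun h3 => h' (by tauto)
    rw [if_pos h1, shift_form]; simp [h1, h2]; ring
  · have h2 : mem U (Q.tgt e) := by by_contra h3; exact h' (by tauto)
    rw [if_neg h1, map_neg, shift_form]; simp [h1, h2]

theorem monic_shift_Ys (U : Finset V) : (shift k U (Q.Ys U)).Monic := by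
  unfold Ys
  rw [map_prod]
  apply Polynomial.monic_prod_of_monic
  intro e he
  rw [Q.shift_sform_of_not_rel (by simpa using he)]
  exact Polynomial.monic_X_add_C _

/-- `Ys U = ± Y (cutRel U)`. -/
theorem Ys_eq (U : Finset V) : ∃ s : MvPolynomial V k, s * s = 1 ∧ Q.Ys U = s * Q.Y (cutRel U) := by
  refine ⟨∏ e ∈ Finset.univ.filter (fun e => ¬ (cutRel U).r (some (Q.src e)) (Q.tgt e)),
    (if Q.src e ∈ U then 1 else -1), ?_, ?_⟩
  · rw [← Finset.prod_mul_distrib]
    apply Finset.prod_eq_one
    intro e _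
    by_cases h : Q.src e ∈ U <;> simp [h]
  · unfold Ys Y
    rw [← Finset.prod_mul_distrib]
    apply Finset.prod_congr rfl
    intro e _
    unfold sform
    by_cases h : Q.src e ∈ U <;> simp [h]

/-- quotient operator -/
def q (U : Finset V) (g : MvPolynomial V k) : MvPolynomial V k :=
  ((shift k U g) /ₘ (shift k U (Q.Ys U))).eval 0

/-- the projection `Π_U` onto the multiples of the cut product -/
def proj (U : Finset V) (g : MvPolynomial V k) : MvPolynomial V k := Q.Ys U * Q.q U g

end Data

/-- uniqueness of division, quotient part -/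
theorem divByMonic_unique' {R : Type*} [CommRing R] {M f a r : Polynomial R} (hM : M.Monic)
    (h : r + M * a = f) (hr : r.degree < M.degree) : f /ₘ M = a :=
  (Polynomial.div_modByMonic_unique a r hM ⟨h, hr⟩).1

theorem add_div {R : Type*} [CommRing R] {M : Polynomial R} (hM : M.Monic) (f g : Polynomial R) :
    (f + g) /ₘ M = f /ₘ M + g /ₘ M := by
  nontriviality R
  refine divByMonic_unique' hM (r := f %ₘ M + g %ₘ M) ?_ ?_
  · calc _ = (f %ₘ M + M * (f /ₘ M)) + (g %ₘ M + M * (g /ₘ M)) := by ring
      _ = f + g := by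
          rw [Polynomial.modByMonic_add_div, Polynomial.modByMonic_add_div]
  · exact lt_of_le_of_lt (Polynomial.degree_add_le _ _)
      (max_lt (Polynomial.degree_modByMonic_lt _ hM) (Polynomial.degree_modByMonic_lt _ hM))

theorem C_mul_div {R : Type*} [CommRing R] {M : Polynomial R} (hM : M.Monic) (c : R)
    (f : Polynomial R) : (Polynomial.C c * f) /ₘ M = Polynomial.C c * (f /ₘ M) := by
  nontriviality R
  refine divByMonic_unique' hM (r := Polynomial.C c * (f %ₘ M)) ?_ ?_
  · calc _ = Polynomial.C c * (f %ₘ M + M * (f /ₘ M)) := by ring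
      _ = _ := by rw [Polynomial.modByMonic_add_div]
  · refine lt_of_le_of_lt ?_ (Polynomial.degree_modByMonic_lt f hM)
    rw [Polynomial.C_mul']
    exact Polynomial.degree_smul_le _ _

namespace Data

variable (Q : Data k V ι κ)

theorem q_add (U : Finset V) (g h : MvPolynomial V k) : Q.q U (g + h) = Q.q U g + Q.q U h := by
  unfold q
  rw [map_add, add_div (Q.monic_shift_Ys U), Polynomial.eval_add]

theorem q_mul_of_inv {U : Finset V} {c : MvPolynomial V k} (hc : shift k U c = Polynomial.C c)
    (g : MvPolynomial V k) : Q.q U (c * g) = c * Q.q U g := by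
  unfold q
  rw [map_mul, hc, C_mul_div (Q.monic_shift_Ys U), Polynomial.eval_mul, Polynomial.eval_C]

theorem q_Ys_mul (U : Finset V) (h : MvPolynomial V k) : Q.q U (Q.Ys U * h) = h := by
  unfold q
  rw [map_mul, Polynomial.mul_divByMonic_cancel_left _ (Q.monic_shift_Ys U), eval_shift]

theorem proj_add (U : Finset V) (g h : MvPolynomial V k) :
    Q.proj U (g + h) = Q.proj U g + Q.proj U h := by
  unfold proj; rw [q_add]; ring

theorem proj_Ys_mul (U : Finset V) (h : MvPolynomial V k) :
    Q.proj U (Q.Ys U * h) = Q.Ys U * h := by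
  unfold proj; rw [q_Ys_mul]

theorem proj_Y_mul (U : Finset V) (h : MvPolynomial V k) :
    Q.proj U (Q.Y (cutRel U) * h) = Q.Y (cutRel U) * h := by
  obtain ⟨s, hs, hY⟩ := Q.Ys_eq U
  have : Q.Y (cutRel U) * h = Q.Ys U * (s * h) := by
    rw [hY]; calc _ = (s * s) * Q.Y (cutRel U) * h := by rw [hs]; ring
      _ = _ := by ring
  rw [this, proj_Ys_mul]

/-- `proj` as an additive map -/
def projHom (U : Finset V) : MvPolynomial V k →+ MvPolynomial V k where
  toFun := Q.proj U
  map_zero' := by
    have := Q.proj_add U 0 0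
    simpa using this
  map_add' := Q.proj_add U

@[simp] theorem projHom_apply (U : Finset V) (g) : Q.projHom U g = Q.proj U g := rfl

/-- effect of `proj` on the multiples of `Y B * Dn B`. -/
theorem proj_mem (U : Finset V) (B : Setoid (Option V)) (h : MvPolynomial V k) :
    ∃ h', Q.proj U (h * (Q.Y B * Q.Dn B)) = h' * (Q.Y (B ⊓ cutRel U) * Q.Dn (B ⊓ cutRel U)) := by
  obtain ⟨s, hs, hY⟩ := Q.Ys_eq U
  -- split `Y B`
  set A := Finset.univ.filter (fun e => ¬ B.r (some (Q.src e)) (Q.tgt e)) with hA
  set Ac := A.filter (fun e => ¬ (cutRel U).r (some (Q.src e)) (Q.tgt e)) with hAc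
  set An := A.filter (fun e => ¬ ¬ (cutRel U).r (some (Q.src e)) (Q.tgt e)) with hAn
  have hYB : Q.Y B = (∏ e ∈ Ac, Q.form e) * (∏ e ∈ An, Q.form e) := by
    unfold Y; rw [← hA, hAc, hAn, Finset.prod_filter_mul_prod_filter_not]
  set P := Finset.univ.filter (fun p => B.r (some (Q.p1 p)) (some (Q.p2 p))) with hP
  set Pn := P.filter (fun p => (cutRel U).r (some (Q.p1 p)) (some (Q.p2 p))) with hPn
  set Pc := P.filter (fun p => ¬ (cutRel U).r (some (Q.p1 p)) (some (Q.p2 p))) with hPc
  have hDB : Q.Dn B = (∏ p ∈ Pn, Q.diff p) * (∏ p ∈ Pc, Q.diff p) := by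
    unfold Dn; rw [← hP, hPn, hPc, Finset.prod_filter_mul_prod_filter_not]
  have hDU : Q.Dn (B ⊓ cutRel U) = ∏ p ∈ Pn, Q.diff p := by
    unfold Dn
    apply Finset.prod_congr _ (fun _ _ => rfl)
    ext p
    simp only [hPn, hP, Finset.mem_filter, Finset.mem_univ, true_and]
    rfl
  have hYU : Q.Y (B ⊓ cutRel U) = Q.Y (cutRel U) * (∏ e ∈ An, Q.form e) := by
    unfold Y
    rw [← Finset.prod_union]
    · apply Finset.prod_congr _ (fun _ _ => rfl)
      ext e
      simp only [hAn, hA, Finset.mem_filter, Finset.mem_union, Finset.mem_univ, true_and]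
      have : (B ⊓ cutRel U).r (some (Q.src e)) (Q.tgt e) ↔
        (B.r (some (Q.src e)) (Q.tgt e) ∧ (cutRel U).r (some (Q.src e)) (Q.tgt e)) := Iff.rfl
      rw [this]; tauto
    · rw [Finset.disjoint_left]
      intro e he he'
      simp only [hAn, hA, Finset.mem_filter, Finset.mem_univ, true_and] at he he'
      exact he'.2 he
  -- invariance
  have hinv1 : shift k U (∏ e ∈ An, Q.form e) = Polynomial.C (∏ e ∈ An, Q.form e) := by
    rw [map_prod, map_prod]
    apply Finset.prod_congr rfl
    intro e he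
    have : (cutRel U).r (some (Q.src e)) (Q.tgt e) := by
      simpa [hAn] using (Finset.mem_filter.1 he).2
    exact Q.shift_form_of_rel this
  have hinv2 : shift k U (∏ p ∈ Pn, Q.diff p) = Polynomial.C (∏ p ∈ Pn, Q.diff p) := by
    rw [map_prod, map_prod]
    apply Finset.prod_congr rfl
    intro p hp
    have h1 : (cutRel U).r (some (Q.p1 p)) (some (Q.p2 p)) := (Finset.mem_filter.1 hp).2
    have h2 : Q.p1 p ∈ U ↔ Q.p2 p ∈ U := by
      simpa using (show mem U (some (Q.p1 p)) ↔ mem U (some (Q.p2 p)) from h1)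
    unfold diff
    rw [map_pow, map_sub, map_pow, map_sub]
    congr 1
    simp only [shift, MvPolynomial.aeval_X]
    by_cases h3 : Q.p1 p ∈ U
    · simp [h3, h2.1 h3]
    · have : Q.p2 p ∉ U := fun h4 => h3 (h2.2 h4)
      simp [h3, this]
  refine ⟨s * Q.q U (h * ((∏ e ∈ Ac, Q.form e) * (∏ p ∈ Pc, Q.diff p))), ?_⟩
  have key : Q.q U (h * (Q.Y B * Q.Dn B)) = (∏ e ∈ An, Q.form e) * ((∏ p ∈ Pn, Q.diff p) *
      Q.q U (h * ((∏ e ∈ Ac, Q.form e) * (∏ p ∈ Pc, Q.diff p)))) := by
    rw [← Q.q_mul_of_inv hinv2, ← Q.q_mul_of_inv hinv1, hYB, hDB]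
    congr 1; ring
  unfold proj
  rw [key, hDU, hYU, hY]
  ring

/-- the ideal of multi-block terms -/
def multi : Ideal (MvPolynomial V k) :=
  Ideal.span {z | ∃ B : Setoid (Option V), B ≠ ⊤ ∧ z = Q.Y B * Q.Dn B}

/-- the cut ideal -/
def cutIdeal : Ideal (MvPolynomial V k) :=
  Ideal.span {z | ∃ U : Finset V, U.Nonempty ∧ z = Q.Y (cutRel U)}

theorem proj_multi (U : Finset V) {g : MvPolynomial V k} (hg : g ∈ Q.multi) :
    Q.proj U g ∈ Q.multi := by
  refine Submodule.closure_induction (p := fun x _ => Q.proj U x ∈ Q.multi) ?_ ?_ ?_ hg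
  · have : Q.proj U 0 = 0 := (Q.projHom U).map_zero
    rw [this]; exact Ideal.zero_mem _
  · intro x y _ _ hx hy
    rw [proj_add]; exact Ideal.add_mem _ hx hy
  · rintro r x ⟨B, hB, rfl⟩
    obtain ⟨h', hh⟩ := Q.proj_mem U B r
    rw [smul_eq_mul, hh]
    refine Ideal.mul_mem_left _ _ (Ideal.subset_span ⟨B ⊓ cutRel U, ?_, rfl⟩)
    intro e
    exact hB (top_le_iff.1 (e ▸ inf_le_left))

/-- `(1 - Π_{U₁}) ∘ ... ∘ (1 - Π_{U_N})`. -/
def projList : List (Finset V) → MvPolynomial V k →+ MvPolynomial V k
  | [] => AddMonoidHom.id _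
  | U :: L => (projList L) - (Q.projHom U).comp (projList L)

theorem projList_cons (U : Finset V) (L : List (Finset V)) (g : MvPolynomial V k) :
    Q.projList (U :: L) g = Q.projList L g - Q.proj U (Q.projList L g) := rfl

/-- each factor preserves the multiples of `Y B` -/
theorem projList_preserves (L : List (Finset V)) (B : Setoid (Option V)) (h : MvPolynomial V k) :
    ∃ h', Q.projList L (Q.Y B * h) = Q.Y B * h' := by
  induction L with
  | nil => exact ⟨h, rfl⟩
  | cons U L ih =>
    obtain ⟨h', hh⟩ := ih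
    -- use the statement for the data without pairs
    let Q' : Data k V ι Empty := ⟨Q.src, Q.tgt, Q.mass, Empty.elim, Empty.elim, Empty.elim⟩
    have hQ : ∀ g, Q'.proj U g = Q.proj U g := fun g => rfl
    have hD : ∀ B', Q'.Dn B' = 1 := by intro B'; unfold Dn; simp
    have hY : ∀ B', Q'.Y B' = Q.Y B' := fun B' => rfl
    obtain ⟨h'', h2⟩ := Q'.proj_mem U B h'
    rw [hD, hD, hY, hY, hQ, mul_one, mul_one] at h2
    -- `Y (B ⊓ cutRel U)` is a multiple of `Y B`
    have hdvd : Q.Y B ∣ Q.Y (B ⊓ cutRel U) := by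
      unfold Y
      apply Finset.prod_dvd_prod_of_subset
      intro e he
      simp only [Finset.mem_filter, Finset.mem_univ, true_and] at he ⊢
      intro h; exact he h.1
    obtain ⟨c, hc⟩ := hdvd
    refine ⟨h' - h'' * c, ?_⟩
    rw [projList_cons, hh, mul_comm (Q.Y B) h', h2, hc]; ring

theorem projList_kills (L : List (Finset V)) {U : Finset V} (hU : U ∈ L) (h : MvPolynomial V k) :
    Q.projList L (Q.Y (cutRel U) * h) = 0 := by
  induction L with
  | nil => simp at hU
  | cons U' L ih =>
    rw [projList_cons]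
    by_cases hUL : U ∈ L
    · rw [ih hUL]
      have : Q.proj U' 0 = 0 := (Q.projHom U').map_zero
      rw [this, sub_zero]
    · have : U = U' := by simpa [hUL] using hU
      subst this
      obtain ⟨h', hh⟩ := Q.projList_preserves L (cutRel U) h
      rw [hh, proj_Y_mul, sub_self]

theorem projList_sub_mem (L : List (Finset V)) (hL : ∀ U ∈ L, U.Nonempty) (g : MvPolynomial V k) :
    Q.projList L (g * Q.Dn ⊤) - g * Q.Dn ⊤ ∈ Q.multi := by
  induction L with
  | nil => simp [projList]
  | cons U L ih =>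
    have ih' := ih (fun U' h => hL U' (List.mem_cons_of_mem _ h))
    rw [projList_cons]
    have hU := hL U List.mem_cons_self
    have h1 : Q.proj U (g * Q.Dn ⊤) ∈ Q.multi := by
      obtain ⟨h', hh⟩ := Q.proj_mem U ⊤ g
      have hY : Q.Y (⊤ : Setoid (Option V)) = 1 := by
        unfold Y
        apply Finset.prod_eq_one
        intro e he
        exact absurd (show (⊤ : Setoid (Option V)).r _ _ from trivial) (Finset.mem_filter.1 he).2
      rw [hY, one_mul, top_inf_eq] at hh
      rw [hh]
      exact Ideal.mul_mem_left _ _ (Ideal.subset_span ⟨_, cutRel_ne_top hU, rfl⟩)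
    have h2 : Q.proj U (Q.projList L (g * Q.Dn ⊤)) ∈ Q.multi := by
      have e : Q.projList L (g * Q.Dn ⊤) =
        (Q.projList L (g * Q.Dn ⊤) - g * Q.Dn ⊤) + g * Q.Dn ⊤ := by ring
      rw [e, proj_add]
      exact Ideal.add_mem _ (Q.proj_multi U ih') h1
    have e2 : Q.projList L (g * Q.Dn ⊤) - Q.proj U (Q.projList L (g * Q.Dn ⊤)) - g * Q.Dn ⊤ =
      (Q.projList L (g * Q.Dn ⊤) - g * Q.Dn ⊤) - Q.proj U (Q.projList L (g * Q.Dn ⊤)) := by ring
    rw [e2]
    exact Ideal.sub_mem _ ih' h2

/-- **Main result.** -/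
theorem mem_multi_of_mem_cutIdeal [Finite V] {g : MvPolynomial V k}
    (hg : g * Q.Dn ⊤ ∈ Q.cutIdeal) : g * Q.Dn ⊤ ∈ Q.multi := by
  have := Fintype.ofFinite V
  let L : List (Finset V) := (Finset.univ.filter (fun U : Finset V => U.Nonempty)).toList
  have hL : ∀ U ∈ L, U.Nonempty := by
    intro U hU
    simpa [L] using hU
  have hkill : Q.projList L (g * Q.Dn ⊤) = 0 := by
    refine Submodule.closure_induction (p := fun x _ => Q.projList L x = 0) ?_ ?_ ?_ hg
    · exact map_zero _
    · intro x y _ _ hx hy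
      rw [map_add, hx, hy, add_zero]
    · rintro r x ⟨U, hU, rfl⟩
      rw [smul_eq_mul, mul_comm]
      exact Q.projList_kills L (by simp [L, hU]) r
  have h := Q.projList_sub_mem L hL g
  rw [hkill, zero_sub] at h
  simpa using (Ideal.neg_mem_iff _).1 h

end Data

end

end Vale.Agent.P291.H809
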