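import Vale.Agent.P291.H809.HXSym

/-!
# P291, stage HPX: change of coefficients
-/

set_option linter.unusedSectionVars false

open MvPolynomial

namespace Vale.Agent.P291.HX.S3

open Vale.Agent.P291 Vale.Agent.P291.HX Vale.Agent.P291.HPX

variable {I E B : Type*} {Λ Λ' : Type*} [Fintype E] [DecidableEq I] [Fintype B]
  [DecidableEq B] [CommRing Λ] [IsDomain Λ] [CommRing Λ'] [IsDomain Λ']
variable (Q : QD I E B Λ) (ψ : Λ →+* Λ')

theorem map_xo (o : Option B) : MvPolynomial.map ψ (xo Λ o) = xo Λ' o := by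
  cases o with
  | none => simp [xo]
  | some x => simp [xo]

/-- the edges do not change -/
def edChg : (Q.chg' ψ).Ed ≃ Q.Ed := Equiv.refl _

theorem tl_chg (h : Λ) (e : (Q.chg' ψ).Ed) :
    ((Q.chg' ψ).dir (ψ h)).tl e = (Q.dir h).tl (edChg Q ψ e) := rfl

theorem hd_chg (h : Λ) (e : (Q.chg' ψ).Ed) :
    ((Q.chg' ψ).dir (ψ h)).hd e = (Q.dir h).hd (edChg Q ψ e) := rfl

theorem c_chg (h : Λ) (e : (Q.chg' ψ).Ed) :
    ((Q.chg' ψ).dir (ψ h)).c e = ψ ((Q.dir h).c (edChg Q ψ e)) := by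
  obtain ⟨p, ε⟩ := e
  cases ε
  · exact (map_sub ψ _ _).symm
  · exact (map_add ψ _ _).symm

theorem w_chg (h : Λ) (e : (Q.chg' ψ).Ed) :
    ((Q.chg' ψ).dir (ψ h)).w e = MvPolynomial.map ψ ((Q.dir h).w (edChg Q ψ e)) := by
  rw [DA.w, DA.w, map_add, map_sub, map_C, map_xo, map_xo, tl_chg, hd_chg, c_chg]

theorem Y_chg (h : Λ) (U : Finset B) :
    ((Q.chg' ψ).dir (ψ h)).Y U = MvPolynomial.map ψ ((Q.dir h).Y U) := by
  rw [DA.Y, DA.Y, map_prod]
  refine Finset.prod_equiv (edChg Q ψ) ?_ (fun e _ => w_chg Q ψ h e)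
  intro e
  rw [DA.Out, DA.Out, Finset.mem_filter, Finset.mem_filter, tl_chg, hd_chg]
  simp only [Finset.mem_univ, true_and]

theorem I_chg (h : Λ) {g : MvPolynomial B Λ} (hg : g ∈ (Q.dir h).I) :
    MvPolynomial.map ψ g ∈ ((Q.chg' ψ).dir (ψ h)).I := by
  have : ((Q.dir h).I).map (MvPolynomial.map ψ) ≤ ((Q.chg' ψ).dir (ψ h)).I := by
    rw [DA.I, Ideal.map_span, Ideal.span_le]
    rintro _ ⟨_, ⟨U, hU, rfl⟩, rfl⟩
    exact Ideal.subset_span ⟨U, hU, (Y_chg Q ψ h U).symm⟩
  exact this (Ideal.mem_map_of_mem _ hg)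

theorem Res_chg (h : Λ) (b : B) (G : MvPolynomial B Λ) :
    ((Q.chg' ψ).dir (ψ h)).Res b (MvPolynomial.map ψ G) =
      MvPolynomial.map ψ ((Q.dir h).Res b G) := by
  have hm := toP_Y_monic (Q.dir h) b
  rw [DA.Res, DA.Res, Y_chg, map_toP, map_toP, ← Polynomial.map_modByMonic _ hm,
    Polynomial.coeff_map, hm.natDegree_map]

theorem Ec_chg (h : Λ) (b : B) :
    (Q.chg' ψ).Ec (ψ h) b = MvPolynomial.map ψ (Q.Ec h b) := by
  rw [QD.Ec, QD.Ec, map_prod]
  refine Finset.prod_congr rfl fun v _ => ?_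
  simp only [map_mul, map_sub, map_add, map_C, map_X, map_ofNat]

theorem EB_chg (h : Λ) :
    (Q.chg' ψ).EB (ψ h) = MvPolynomial.map ψ (Q.EB h) := by
  rw [QD.EB, QD.EB, map_prod]
  refine Finset.prod_congr rfl fun v _ => ?_
  simp only [map_mul, map_sub, map_add, map_C, map_X, map_ofNat]

theorem R_chg {F : SS B Λ} (hF : F ∈ Q.R) : MvPolynomial.map ψ F ∈ (Q.chg' ψ).R := by
  intro σ hσ
  rw [← map_rename, hF σ hσ]

theorem chg_eval_C : (Q.chg' (Polynomial.C : Λ →+* Polynomial Λ)).chg'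
    (Polynomial.evalRingHom (0 : Λ)) = Q := by
  obtain ⟨s, t, v, m⟩ := Q
  simp [QD.chg']

theorem D_split (b : B) :
    Q.D = rename (Subtype.val : Del b → B) (Q.del b).D * Q.Ec 0 b := by
  have key : rename (Subtype.val : Del b → B) (Q.del b).D =
      ∏ p ∈ (Q.Prs.filter (fun p => p.1 ≠ p.2)).filter (fun p => p.1 ≠ b ∧ p.2 ≠ b),
        (X p.1 - X p.2 : SS B Λ) := by
    rw [QD.D, map_prod]
    refine Finset.prod_bij (fun p _ => (p.1.1, p.2.1)) ?_ ?_ ?_ ?_
    · intro p hp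
      simp only [QD.Prs, Finset.mem_filter, Finset.mem_univ, true_and] at hp ⊢
      exact ⟨⟨hp.1, fun h => hp.2 (Subtype.ext h)⟩, p.1.2, p.2.2⟩
    · intro p _ q _ hpq
      simp only [Prod.mk.injEq] at hpq
      exact Prod.ext (Subtype.ext hpq.1) (Subtype.ext hpq.2)
    · intro p hp
      simp only [QD.Prs, Finset.mem_filter, Finset.mem_univ, true_and] at hp
      refine ⟨(⟨p.1, hp.2.1⟩, ⟨p.2, hp.2.2⟩), ?_, rfl⟩
      simp only [QD.Prs, Finset.mem_filter, Finset.mem_univ, true_and]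
      exact ⟨hp.1.1, fun h => hp.1.2 (congrArg Subtype.val h)⟩
    · intro p _
      simp
  rw [key, QD.D, ← Finset.prod_filter_mul_prod_filter_not (Q.Prs.filter (fun p => p.1 ≠ p.2))
    (fun p => p.1 ≠ b ∧ p.2 ≠ b)]
  congr 1
  -- pairs that contain `b`
  rw [QD.Ec, ← Finset.prod_filter_mul_prod_filter_not _ (fun p : B × B => p.2 = b),
    Finset.prod_mul_distrib]
  congr 1
  · symm
    refine Finset.prod_bij (fun v _ => (v, b)) ?_ ?_ ?_ ?_
    · intro v hv
      simp only [QD.Prs, Finset.mem_filter, Finset.mem_univ, true_and, and_true] at hv ⊢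
      exact ⟨⟨hv.2, hv.1⟩, fun h => h.2 rfl⟩
    · intro v _ v' _ h
      exact (Prod.mk.injEq _ _ _ _ ▸ h).1
    · intro p hp
      simp only [QD.Prs, Finset.mem_filter, Finset.mem_univ, true_and] at hp
      refine ⟨p.1, ?_, Prod.ext rfl hp.2.symm⟩
      simp only [Finset.mem_filter, Finset.mem_univ, true_and]
      refine ⟨fun h => hp.1.1.2 (h.trans hp.2.symm), ?_⟩
      rw [← hp.2]
      exact hp.1.1.1
    · intro v _
      rfl
  · symm
    refine Finset.prod_bij (fun v _ => (b, v)) ?_ ?_ ?_ ?_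
    · intro v hv
      simp only [QD.Prs, Finset.mem_filter, Finset.mem_univ, true_and] at hv ⊢
      exact ⟨⟨⟨hv.2.symm, fun h => hv.1 h.symm⟩, fun h => h.1 rfl⟩, hv.1⟩
    · intro v _ v' _ h
      exact (Prod.mk.injEq _ _ _ _ ▸ h).2
    · intro p hp
      simp only [QD.Prs, Finset.mem_filter, Finset.mem_univ, true_and] at hp
      have hb : p.1 = b := by
        by_contra h2
        exact hp.1.2 ⟨h2, hp.2⟩
      refine ⟨p.2, ?_, Prod.ext hb.symm rfl⟩
      simp only [Finset.mem_filter, Finset.mem_univ, true_and]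
      refine ⟨hp.2, ?_⟩
      rw [← hb]
      exact hp.1.1.1.symm
    · intro v _
      simp

/-- At `h = 0` the product of the edges leaving `b` is the cut product up to sign. -/
theorem Y_dir_zero (b : B) : Ideal.span {(Q.dir 0).Y {b}} = Ideal.span {Q.cut {b}} := by
  set s : SS B Λ := ∏ e ∈ (Q.dir 0).Out {b}, (if e.2 then 1 else -1) with hs
  have hss : s * s = 1 := by
    rw [hs, ← Finset.prod_mul_distrib]
    refine Finset.prod_eq_one fun e _ => ?_
    by_cases h : e.2 = true <;> simp [h]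
  have hY : (Q.dir 0).Y {b} = s * Q.cut {b} := by
    have h1 : Q.cut {b} = ∏ e ∈ (Q.dir 0).Out {b}, Q.xi e.1.1 := by
      symm
      refine Finset.prod_bij (fun e _ => e.1.1) ?_ ?_ ?_ ?_
      · rintro ⟨⟨⟨a, c, o⟩, ⟨h1, h2⟩, h3⟩, ε⟩ he
        rw [mem_Out_single] at he
        simp only [QD.Wt, Finset.mem_filter, Finset.mem_univ, true_and, Finset.mem_singleton,
          exists_eq_left]
        refine ⟨⟨h1, h2⟩, ?_⟩
        cases ε
        · obtain ⟨he1, he2⟩ := he
          have e1 : c = b := Option.some_injective _ he1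
          intro h
          exact he2 (h.mp e1)
        · obtain ⟨he1, he2⟩ := he
          intro h
          exact he2 (congrArg some (h.mpr he1))
      · rintro ⟨⟨⟨a, c, o⟩, ⟨h1, h2⟩, h3⟩, ε⟩ he ⟨⟨⟨a', c', o'⟩, ⟨h1', h2'⟩, h3'⟩, ε'⟩ he' heq
        simp only [Prod.mk.injEq] at heq
        obtain ⟨rfl, rfl, rfl⟩ := heq
        rw [mem_Out_single] at he he'
        cases ε <;> cases ε'
        · rfl
        · obtain ⟨he1, he2⟩ := he
          obtain ⟨he1', he2'⟩ := he'
          exact absurd he1' he2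
        · obtain ⟨he1, he2⟩ := he
          obtain ⟨he1', he2'⟩ := he'
          exact absurd he1 he2'
        · rfl
      · rintro ⟨a, c, o⟩ hp
        simp only [QD.Wt, Finset.mem_filter, Finset.mem_univ, true_and, Finset.mem_singleton,
          exists_eq_left] at hp
        obtain ⟨⟨h1, h2⟩, h3⟩ := hp
        by_cases hc : c = b
        · have ho : o ≠ some b := fun h => h3 ⟨fun _ => h, fun _ => hc⟩
          refine ⟨(⟨⟨a, c, o⟩, ⟨h1, h2⟩, ?_⟩, false), ?_, rfl⟩
          · rw [hc]; exact ho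
          · rw [mem_Out_single]
            exact ⟨congrArg some hc, ho⟩
        · have ho : o = some b := by
            by_contra h
            exact h3 ⟨fun h' => absurd h' hc, fun h' => absurd h' h⟩
          refine ⟨(⟨⟨a, c, o⟩, ⟨h1, h2⟩, ?_⟩, true), ?_, rfl⟩
          · show o ≠ some c
            rw [ho]
            exact fun h => hc (Option.some_injective _ h).symm
          · rw [mem_Out_single]
            exact ⟨ho, fun h => hc (Option.some_injective _ h)⟩
      · intro e _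
        rfl
    rw [h1, hs, ← Finset.prod_mul_distrib, DA.Y]
    refine Finset.prod_congr rfl fun e _ => ?_
    obtain ⟨⟨⟨a, c, o⟩, h⟩, ε⟩ := e
    cases ε
    · simp only [DA.w, QD.dir, QD.xi, Bool.false_eq_true, if_false, map_sub, map_zero]
      simp only [xo, Option.elim_some]
      ring
    · simp only [DA.w, QD.dir, QD.xi, if_true, map_add, map_zero]
      simp only [xo, Option.elim_some]
      ring
  rw [hY, Ideal.span_singleton_mul_left_unit (IsUnit.of_mul_eq_one s hss)]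

theorem exists_lam (Λ : Type*) [CommRing Λ] [IsDomain Λ] [Algebra ℚ Λ] :
    ∃ lam : FractionRing (Polynomial Λ) →+ ℚ,
      lam (algebraMap (Polynomial Λ) _ Polynomial.X) = 1 ∧
      ∀ x : Λ, lam (algebraMap (Polynomial Λ) _ (Polynomial.C x)) = 0 := by
  set K := FractionRing (Polynomial Λ)
  set ψ : Λ →+* K := (algebraMap (Polynomial Λ) K).comp Polynomial.C
  let V : Submodule ℚ K :=
    { carrier := Set.range ψ
      add_mem' := by rintro _ _ ⟨a, rfl⟩ ⟨b, rfl⟩; exact ⟨a + b, map_add _ _ _⟩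
      zero_mem' := ⟨0, map_zero _⟩
      smul_mem' := by
        rintro c _ ⟨a, rfl⟩
        refine ⟨c • a, ?_⟩
        show algebraMap (Polynomial Λ) K (Polynomial.C (c • a)) =
          c • algebraMap (Polynomial Λ) K (Polynomial.C a)
        rw [← Polynomial.smul_C]
        exact map_rat_smul (algebraMap (Polynomial Λ) K) c (Polynomial.C a) }
  have hX : algebraMap (Polynomial Λ) K Polynomial.X ∉ V := by
    rintro ⟨a, ha⟩
    have h2 := IsFractionRing.injective (Polynomial Λ) K ha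
    have h3 := congrArg (fun p => Polynomial.coeff p 1) h2
    simp at h3
  obtain ⟨f, hf1, hf2⟩ := Submodule.exists_dual_map_eq_bot_of_notMem hX inferInstance
  refine ⟨((f (algebraMap (Polynomial Λ) K Polynomial.X))⁻¹ • f).toAddMonoidHom, ?_, ?_⟩
  · show (f _)⁻¹ * f _ = 1
    exact inv_mul_cancel₀ hf1
  · intro x
    show (f _)⁻¹ * f _ = 0
    have : f (ψ x) = 0 := by
      have h4 : f (ψ x) ∈ V.map f := ⟨ψ x, ⟨x, rfl⟩, rfl⟩
      rw [hf2] at h4
      exact h4
    exact mul_eq_zero_of_right _ this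

end Vale.Agent.P291.HX.S3
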