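import Mathlib

/-!
# P291, stage HPX, block (3): a polynomial all of whose residues lie in an ideal
-/

open Polynomial

namespace Vale.Agent.P291.HPX

variable {R : Type*} [CommRing R]

/-- If `p` is monic of degree `d` and the coefficients of degree `d - 1` of `X ^ j * H` mod `p` are
in `J` for all `j`, then `H` mod `p` has all its coefficients in `J`. -/
theorem coeff_modByMonic_mem [Nontrivial R] {p : R[X]} (hp : p.Monic) (J : Ideal R) (H : R[X])
    (h : ∀ j : ℕ, ((X ^ j * H) %ₘ p).coeff (p.natDegree - 1) ∈ J) (i : ℕ) :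
    (H %ₘ p).coeff i ∈ J := by
  classical
  by_cases h1 : p.natDegree = 0
  · rw [(hp.natDegree_eq_zero.mp h1), modByMonic_one]
    simp
  -- pass to the quotient by `J`
  set φ := Ideal.Quotient.mk J with hφ
  by_cases hJ : J = ⊤
  · rw [hJ]; trivial
  have : Nontrivial (R ⧸ J) := Ideal.Quotient.nontrivial_iff.mpr hJ
  have hpm : (p.map φ).Monic := hp.map φ
  have hdeg : (p.map φ).natDegree = p.natDegree := hp.natDegree_map φ
  rw [← Ideal.Quotient.eq_zero_iff_mem, ← coeff_map, map_modByMonic φ hp]
  have h' : ∀ j : ℕ, ((X ^ j * (H.map φ)) %ₘ (p.map φ)).coeff (p.natDegree - 1) = 0 := by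
    intro j
    have := Ideal.Quotient.eq_zero_iff_mem.mpr (h j)
    rw [← coeff_map, map_modByMonic φ hp] at this
    simpa using this
  set q := p.map φ
  set G := H.map φ
  -- `r = G mod q` satisfies `X ^ j r mod q` has zero top coefficient
  have hr : G %ₘ q = 0 := by
    by_contra hne
    set r := G %ₘ q with hrdef
    have hrq : r.natDegree < q.natDegree := by
      refine natDegree_modByMonic_lt G hpm ?_
      intro h2
      rw [h2] at hdeg
      simp at hdeg
      omega
    set j := q.natDegree - 1 - r.natDegree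
    have e1 : (X ^ j * G) %ₘ q = X ^ j * r := by
      have e2 : (X ^ j * G) %ₘ q = (X ^ j * r) %ₘ q := by
        rw [hrdef, modByMonic_eq_sub_mul_div G]
        have e3 : X ^ j * (G - q * (G /ₘ q)) = X ^ j * G - q * (X ^ j * (G /ₘ q)) := by ring
        rw [e3, sub_modByMonic, (modByMonic_eq_zero_iff_dvd hpm).mpr (dvd_mul_right q _), sub_zero]
      rw [e2]
      refine (modByMonic_eq_self_iff hpm).mpr ?_
      refine degree_lt_degree ?_
      refine lt_of_le_of_lt natDegree_mul_le ?_
      rw [natDegree_X_pow]
      omega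
    have e4 := h' j
    rw [e1, ← hdeg] at e4
    have e5 : q.natDegree - 1 = r.natDegree + j := by omega
    rw [e5, mul_comm, coeff_mul_X_pow] at e4
    exact hne (leadingCoeff_eq_zero.mp e4)
  rw [hr, coeff_zero]

end Vale.Agent.P291.HPX
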