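import Vale.Agent.P291.HX.HXCore
import Vale.Agent.P291.H809.Triang

set_option linter.unusedSectionVars false

/-!
# P291, stage HPX: elementary facts on the residue
-/

open MvPolynomial

namespace Vale.Agent.P291.HX.S3

open Vale.Agent.P291 Vale.Agent.P291.HX Vale.Agent.P291.HPX

universe u v w

variable {B : Type u} {E : Type v} {k : Type w} [Fintype B] [DecidableEq B] [Fintype E]
  [CommRing k]

omit [Fintype B] in
theorem toP_X_self (b : B) : toP (k := k) b (X b) = Polynomial.X := by simp [toP]

omit [Fintype B] in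
theorem toP_X_ne (b : B) {x : B} (h : x ≠ b) :
    toP (k := k) b (X x) = Polynomial.C (X ⟨x, h⟩) := by simp [toP, h]

omit [Fintype B] in
theorem toP_C (b : B) (x : k) :
    toP (k := k) b (C x) = Polynomial.C (C x) := by
  rw [← MvPolynomial.algebraMap_eq, AlgHom.commutes]
  rfl

omit [Fintype B] in
theorem toP_rename (b : B) (g : MvPolynomial (Del b) k) :
    toP b (rename (Subtype.val : Del b → B) g) = Polynomial.C g := by
  induction g using MvPolynomial.induction_on with
  | C a => rw [rename_C, toP_C]
  | add p q hp hq => rw [map_add, map_add, hp, hq, map_add]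
  | mul_X p n hp => rw [map_mul, map_mul, hp, rename_X, toP_X_ne b n.2, map_mul]

/-- inverse of `toP` -/
noncomputable def unP (b : B) : Polynomial (MvPolynomial (Del b) k) →+* MvPolynomial B k :=
  Polynomial.eval₂RingHom (rename (R := k) (Subtype.val : Del b → B)).toRingHom (X b)

omit [Fintype B] in
theorem unP_toP (b : B) (G : MvPolynomial B k) : unP b (toP b G) = G := by
  induction G using MvPolynomial.induction_on with
  | C a => simp [unP]
  | add p q hp hq => rw [map_add, map_add, hp, hq]
  | mul_X p n hp =>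
    rw [map_mul, map_mul, hp]
    congr 1
    by_cases h : n = b
    · subst h; simp [unP, toP_X_self]
    · rw [toP_X_ne b h]; simp [unP]

omit [Fintype B] in
theorem toP_xo (b : B) {o : Option B} (h : o ≠ some b) :
    toP (k := k) b (xo k o) = Polynomial.C (xo k (dn b o h)) := by
  cases o with
  | none => simp [xo, dn]
  | some x => exact toP_X_ne b (fun hx => h (congrArg some hx))

omit [Fintype B] in
theorem mem_Out_single (A : DA B E k) (b : B) (e : E) :
    e ∈ A.Out {b} ↔ A.tl e = some b ∧ A.hd e ≠ some b := by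
  simp only [DA.Out, oU, Finset.mem_filter, Finset.mem_univ, true_and, Finset.mem_map,
    Finset.mem_singleton, exists_eq_left, Function.Embedding.some_apply]
  constructor
  · rintro ⟨h1, h2⟩; exact ⟨h1.symm, fun h => h2 h.symm⟩
  · rintro ⟨h1, h2⟩; exact ⟨h1.symm, fun h => h2 h.symm⟩

omit [Fintype B] in
theorem toP_w (A : DA B E k) (b : B) {e : E} (h1 : A.tl e = some b) (h2 : A.hd e ≠ some b) :
    toP b (A.w e) = Polynomial.X - Polynomial.C (xo k (dn b (A.hd e) h2) - C (A.c e)) := by
  rw [DA.w, map_add, map_sub, h1, toP_xo b h2, toP_C]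
  have : toP (k := k) b (xo k (some b)) = Polynomial.X := toP_X_self b
  rw [this, map_sub]
  ring

omit [Fintype B] in
theorem toP_Y_monic (A : DA B E k) (b : B) : (toP b (A.Y {b})).Monic := by
  rw [DA.Y, map_prod]
  refine Polynomial.monic_prod_of_monic _ _ fun e he => ?_
  obtain ⟨h1, h2⟩ := (mem_Out_single A b e).mp he
  rw [toP_w A b h1 h2]
  exact Polynomial.monic_X_sub_C _

omit [Fintype B] in
theorem Res_add (A : DA B E k) (b : B) (G H : MvPolynomial B k) :
    A.Res b (G + H) = A.Res b G + A.Res b H := by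
  rw [DA.Res, map_add, Polynomial.add_modByMonic, Polynomial.coeff_add]
  rfl

omit [Fintype B] in
theorem Res_rename_mul (A : DA B E k) (b : B) (g : MvPolynomial (Del b) k)
    (G : MvPolynomial B k) :
    A.Res b (rename (Subtype.val : Del b → B) g * G) = g * A.Res b G := by
  rw [DA.Res, map_mul, toP_rename, ← Polynomial.smul_eq_C_mul, Polynomial.smul_modByMonic,
    Polynomial.coeff_smul, smul_eq_mul]
  rfl

omit [Fintype B] in
theorem map_toP {k' : Type*} [CommRing k'] (φ : k →+* k') (b : B) (G : MvPolynomial B k) :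
    toP b (MvPolynomial.map φ G) = Polynomial.map (MvPolynomial.map φ) (toP b G) := by
  induction G using MvPolynomial.induction_on with
  | C a => rw [map_C, toP_C, toP_C, Polynomial.map_C, map_C]
  | add p q hp hq => rw [map_add, map_add, hp, hq, map_add, Polynomial.map_add]
  | mul_X p n hp =>
    rw [map_mul, map_mul, hp, map_X, map_mul, Polynomial.map_mul]
    congr 1
    by_cases h : n = b
    · subst h; simp [toP_X_self]
    · rw [toP_X_ne b h, toP_X_ne b h]; simp

omit [Fintype B] in
theorem map_Y {k' : Type*} [CommRing k'] (φ : k →+* k') (A : DA B E k) (U : Finset B) :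
    (A.map φ).Y U = MvPolynomial.map φ (A.Y U) := by
  have hxo : ∀ o : Option B, MvPolynomial.map φ (xo k o) = xo k' o := by
    intro o
    cases o with
    | none => simp [xo]
    | some x => simp [xo]
  rw [DA.Y, DA.Y, map_prod]
  refine Finset.prod_congr rfl fun e _ => ?_
  rw [DA.w, DA.w, map_add, map_sub, map_C, hxo, hxo]
  rfl

theorem Res_map {k' : Type*} [CommRing k'] (φ : k →+* k') (A : DA B E k) (b : B)
    (G : MvPolynomial B k) :
    (A.map φ).Res b (MvPolynomial.map φ G) = MvPolynomial.map φ (A.Res b G) := by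
  nontriviality k'
  rw [DA.Res, DA.Res, map_Y, map_toP, map_toP,
    ← Polynomial.map_modByMonic _ (toP_Y_monic A b), Polynomial.coeff_map,
    (toP_Y_monic A b).natDegree_map]

omit [Fintype B] in
theorem mem_of_Res (A : DA B E k) (b : B) (J : Ideal (MvPolynomial (Del b) k))
    (G : MvPolynomial B k) (h : ∀ m : ℕ, A.Res b (X b ^ m * G) ∈ J) :
    G ∈ Ideal.span {A.Y {b}} ⊔ J.map (rename (R := k) (Subtype.val : Del b → B)) := by
  nontriviality k
  have hm := toP_Y_monic A b
  have h1 : ∀ i, (toP b G %ₘ toP b (A.Y {b})).coeff i ∈ J := by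
    refine coeff_modByMonic_mem hm J _ fun j => ?_
    have h2 := h j
    rw [DA.Res, map_mul, map_pow, toP_X_self] at h2
    exact h2
  have h3 : G = A.Y {b} * unP b (toP b G /ₘ toP b (A.Y {b})) +
      unP b (toP b G %ₘ toP b (A.Y {b})) := by
    conv_lhs => rw [← unP_toP b G, ← Polynomial.modByMonic_add_div (toP b G) (toP b (A.Y {b}))]
    rw [map_add, map_mul, unP_toP, add_comm]
  rw [h3]
  refine add_mem (Ideal.mem_sup_left (Ideal.mul_mem_right _ _ (Ideal.subset_span rfl)))
    (Ideal.mem_sup_right ?_)
  rw [unP, Polynomial.coe_eval₂RingHom, Polynomial.eval₂_eq_sum, Polynomial.sum]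
  refine Ideal.sum_mem _ fun i _ => Ideal.mul_mem_right _ _ ?_
  exact Ideal.mem_map_of_mem _ (h1 i)

end Vale.Agent.P291.HX.S3
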