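import Vale.Agent.P291.H809.HXRes

/-!
# P291, stage HPX: the symmetries of the directed arrangement of a quiver
-/

set_option linter.unusedSectionVars false

open MvPolynomial

namespace Vale.Agent.P291.HX.S3

open Vale.Agent.P291 Vale.Agent.P291.HX Vale.Agent.P291.HPX

universe u v w

variable {I : Type*} {E : Type*} {B : Type u} {k : Type*} [Fintype E] [DecidableEq I] [Fintype B]
  [DecidableEq B] [CommRing k] [IsDomain k]
variable (Q : QD I E B k)

/-- The action of a permutation of the boxes on the directed edges. -/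
def edEquiv (σ : Equiv.Perm B) (hσ : σ ∈ Q.W) : Q.Ed ≃ Q.Ed where
  toFun e := ⟨⟨(e.1.1.1, σ e.1.1.2.1, e.1.1.2.2.map σ), by
    obtain ⟨⟨h1, h2⟩, h3⟩ := e.1.2
    refine ⟨⟨(hσ _).trans h1, ?_⟩, ?_⟩
    · rw [← h2]
      cases e.1.1.2.2 with
      | none => rfl
      | some x => exact congrArg some (hσ x)
    · intro h
      apply h3
      cases ho : e.1.1.2.2 with
      | none => rw [ho] at h; cases h
      | some x =>
        rw [ho] at h
        exact congrArg some (σ.injective (Option.some_injective _ h))⟩, e.2⟩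
  invFun e := ⟨⟨(e.1.1.1, σ⁻¹ e.1.1.2.1, e.1.1.2.2.map (σ⁻¹ : Equiv.Perm B)), by
    have hσ' := Q.W.inv_mem hσ
    obtain ⟨⟨h1, h2⟩, h3⟩ := e.1.2
    refine ⟨⟨(hσ' _).trans h1, ?_⟩, ?_⟩
    · rw [← h2]
      cases e.1.1.2.2 with
      | none => rfl
      | some x => exact congrArg some (hσ' x)
    · intro h
      apply h3
      cases ho : e.1.1.2.2 with
      | none => rw [ho] at h; cases h
      | some x =>
        rw [ho] at h
        exact congrArg some ((σ⁻¹ : Equiv.Perm B).injective (Option.some_injective _ h))⟩, e.2⟩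
  left_inv e := by
    obtain ⟨⟨⟨a, b, o⟩, h⟩, ε⟩ := e
    simp only [Prod.mk.injEq, Subtype.mk.injEq, true_and, and_true]
    refine ⟨by simp, ?_⟩
    cases o <;> simp
  right_inv e := by
    obtain ⟨⟨⟨a, b, o⟩, h⟩, ε⟩ := e
    simp only [Prod.mk.injEq, Subtype.mk.injEq, true_and, and_true]
    refine ⟨by simp, ?_⟩
    cases o <;> simp

theorem tl_ed (h : k) (σ : Equiv.Perm B) (hσ : σ ∈ Q.W) (e : Q.Ed) :
    (Q.dir h).tl (edEquiv Q σ hσ e) = ((Q.dir h).tl e).map σ := by
  obtain ⟨p, ε⟩ := e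
  cases ε <;> rfl

theorem hd_ed (h : k) (σ : Equiv.Perm B) (hσ : σ ∈ Q.W) (e : Q.Ed) :
    (Q.dir h).hd (edEquiv Q σ hσ e) = ((Q.dir h).hd e).map σ := by
  obtain ⟨p, ε⟩ := e
  cases ε <;> rfl

theorem c_ed (h : k) (σ : Equiv.Perm B) (hσ : σ ∈ Q.W) (e : Q.Ed) :
    (Q.dir h).c (edEquiv Q σ hσ e) = (Q.dir h).c e := by
  obtain ⟨p, ε⟩ := e
  cases ε <;> rfl

theorem rename_xo (σ : Equiv.Perm B) (o : Option B) :
    rename σ (xo k o) = xo k (o.map σ) := by
  cases o with
  | none => simp [xo]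
  | some x => simp [xo]

theorem rename_w (h : k) (σ : Equiv.Perm B) (hσ : σ ∈ Q.W) (e : Q.Ed) :
    rename σ ((Q.dir h).w e) = (Q.dir h).w (edEquiv Q σ hσ e) := by
  rw [DA.w, DA.w, map_add, map_sub, rename_C, rename_xo, rename_xo, tl_ed, hd_ed, c_ed]

theorem map_eq_some (σ : Equiv.Perm B) (o : Option B) (b : B) :
    o.map σ = some (σ b) ↔ o = some b := by
  cases o with
  | none => simp
  | some x => simp

theorem rename_Yin (h : k) (σ : Equiv.Perm B) (hσ : σ ∈ Q.W) (b : B) :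
    rename σ ((Q.dir h).Yin b) = (Q.dir h).Yin (σ b) := by
  rw [DA.Yin, DA.Yin, map_prod]
  refine Finset.prod_equiv (edEquiv Q σ hσ) ?_ (fun e _ => rename_w Q h σ hσ e)
  intro e
  simp only [Finset.mem_filter, Finset.mem_univ, true_and]
  rw [hd_ed, tl_ed, map_eq_some, ne_eq, ne_eq, map_eq_some]

theorem rename_Y_single (h : k) (σ : Equiv.Perm B) (hσ : σ ∈ Q.W) (b : B) :
    rename σ ((Q.dir h).Y {b}) = (Q.dir h).Y {σ b} := by
  rw [DA.Y, DA.Y, map_prod]
  refine Finset.prod_equiv (edEquiv Q σ hσ) ?_ (fun e _ => rename_w Q h σ hσ e)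
  intro e
  rw [mem_Out_single, mem_Out_single, hd_ed, tl_ed, map_eq_some, ne_eq, ne_eq, map_eq_some]

theorem rename_Ec (h : k) (σ : Equiv.Perm B) (hσ : σ ∈ Q.W) (b : B) :
    rename σ (Q.Ec h b) = Q.Ec h (σ b) := by
  rw [QD.Ec, QD.Ec, map_prod]
  refine Finset.prod_equiv σ ?_ ?_
  · intro v
    simp only [Finset.mem_filter, Finset.mem_univ, true_and, ne_eq, EmbeddingLike.apply_eq_iff_eq]
    rw [hσ v, hσ b]
  · intro v _
    simp

theorem rename_EB (h : k) (σ : Equiv.Perm B) (hσ : σ ∈ Q.W) :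
    rename σ (Q.EB h) = Q.EB h := by
  rw [QD.EB, map_prod]
  refine Finset.prod_equiv (Equiv.prodCongr σ σ) ?_ ?_
  · rintro ⟨a, b⟩
    simp only [QD.Prs, Finset.mem_filter, Finset.mem_univ, true_and, ne_eq,
      Equiv.prodCongr_apply, Prod.map_apply, EmbeddingLike.apply_eq_iff_eq]
    rw [hσ a, hσ b]
  · rintro ⟨a, b⟩ _
    simp

/-- `rename σ` sends the product of the deleted data at `b` to that at `σ b` -/
theorem rename_EB_del (h : k) (σ : Equiv.Perm B) (hσ : σ ∈ Q.W) (b : B) :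
    rename σ (rename (Subtype.val : Del b → B) ((Q.del b).EB h)) =
      rename (Subtype.val : Del (σ b) → B) ((Q.del (σ b)).EB h) := by
  have key : ∀ b : B, rename (Subtype.val : Del b → B) ((Q.del b).EB h) =
      ∏ p ∈ Finset.univ.filter (fun p : B × B => Q.vx p.1 = Q.vx p.2 ∧ p.1 ≠ p.2 ∧ p.1 ≠ b ∧
        p.2 ≠ b), ((X p.1 - X p.2) * (C (2 * h) - X p.1 + X p.2)) := by
    intro b
    rw [QD.EB, map_prod]
    refine Finset.prod_bij (fun p _ => (p.1.1, p.2.1)) ?_ ?_ ?_ ?_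
    · intro p hp
      simp only [QD.Prs, Finset.mem_filter, Finset.mem_univ, true_and] at hp ⊢
      exact ⟨hp.1, fun h => hp.2 (Subtype.ext h), p.1.2, p.2.2⟩
    · intro p _ q _ hpq
      simp only [Prod.mk.injEq] at hpq
      exact Prod.ext (Subtype.ext hpq.1) (Subtype.ext hpq.2)
    · intro p hp
      simp only [Finset.mem_filter, Finset.mem_univ, true_and] at hp
      refine ⟨(⟨p.1, hp.2.2.1⟩, ⟨p.2, hp.2.2.2⟩), ?_, rfl⟩
      simp only [QD.Prs, Finset.mem_filter, Finset.mem_univ, true_and]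
      exact ⟨hp.1, fun h => hp.2.1 (congrArg Subtype.val h)⟩
    · intro p _
      simp
  rw [key, key, map_prod]
  refine Finset.prod_equiv (Equiv.prodCongr σ σ) ?_ ?_
  · rintro ⟨a, c⟩
    simp only [Finset.mem_filter, Finset.mem_univ, true_and, ne_eq,
      Equiv.prodCongr_apply, Prod.map_apply, EmbeddingLike.apply_eq_iff_eq]
    rw [hσ a, hσ c]
  · rintro ⟨a, c⟩ _
    simp

/-- extension of a permutation -/
theorem ofSubtype_mem (b : B) (σ : Equiv.Perm (Del b)) (hσ : σ ∈ (Q.del b).W) :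
    Equiv.Perm.ofSubtype σ ∈ Q.W ∧ (Equiv.Perm.ofSubtype σ : Equiv.Perm B) b = b := by
  constructor
  · intro x
    by_cases hx : x = b
    · rw [Equiv.Perm.ofSubtype_apply_of_not_mem]
      simpa using hx
    · have := Equiv.Perm.ofSubtype_apply_coe σ ⟨x, hx⟩
      rw [show ((⟨x, hx⟩ : Del b) : B) = x from rfl] at this
      rw [this]
      exact hσ ⟨x, hx⟩
  · rw [Equiv.Perm.ofSubtype_apply_of_not_mem]
    simp

theorem rename_ofSubtype (b : B) (σ : Equiv.Perm (Del b)) (g : MvPolynomial (Del b) k) :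
    rename (Subtype.val : Del b → B) (rename σ g) =
      rename (Equiv.Perm.ofSubtype σ : Equiv.Perm B) (rename (Subtype.val : Del b → B) g) := by
  rw [rename_rename, rename_rename]
  congr 2
  funext x
  exact (Equiv.Perm.ofSubtype_apply_coe σ x).symm

theorem toP_rename_ofSubtype (b : B) (σ : Equiv.Perm (Del b)) (G : MvPolynomial B k) :
    toP b (rename (Equiv.Perm.ofSubtype σ : Equiv.Perm B) G) =
      Polynomial.map (rename (R := k) σ).toRingHom (toP b G) := by
  induction G using MvPolynomial.induction_on with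
  | C a => rw [rename_C, toP_C, Polynomial.map_C]; simp
  | add p q hp hq => rw [map_add, map_add, hp, hq, map_add, Polynomial.map_add]
  | mul_X p n hp =>
    rw [map_mul, map_mul, hp, rename_X, map_mul, Polynomial.map_mul]
    congr 1
    by_cases h : n = b
    · subst h
      rw [Equiv.Perm.ofSubtype_apply_of_not_mem _ (by simp), toP_X_self, Polynomial.map_X]
    · have := Equiv.Perm.ofSubtype_apply_coe σ ⟨n, h⟩
      rw [show ((⟨n, h⟩ : Del b) : B) = n from rfl] at this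
      rw [this, toP_X_ne b (σ ⟨n, h⟩).2, toP_X_ne b h, Polynomial.map_C]
      simp

theorem rename_Res (h : k) (b : B) (σ : Equiv.Perm (Del b)) (hσ : σ ∈ (Q.del b).W)
    (G : MvPolynomial B k) :
    rename σ ((Q.dir h).Res b G) =
      (Q.dir h).Res b (rename (Equiv.Perm.ofSubtype σ : Equiv.Perm B) G) := by
  obtain ⟨h1, h2⟩ := ofSubtype_mem Q b σ hσ
  have h3 : Polynomial.map (rename (R := k) σ).toRingHom (toP b ((Q.dir h).Y {b})) =
      toP b ((Q.dir h).Y {b}) := by
    rw [← toP_rename_ofSubtype, rename_Y_single Q h _ h1, h2]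
  have hm := toP_Y_monic (Q.dir h) b
  conv_rhs => rw [DA.Res, toP_rename_ofSubtype, ← h3, ← Polynomial.map_modByMonic _ hm,
    Polynomial.coeff_map, h3]
  rfl

theorem Res_mem_R (h : k) {F : SS B k} (hF : F ∈ Q.R) (b : B) (m : ℕ) :
    (Q.dir h).Res b (X b ^ m * (Q.Ec h b * F)) ∈ (Q.del b).R := by
  intro σ hσ
  obtain ⟨h1, h2⟩ := ofSubtype_mem Q b σ hσ
  rw [rename_Res Q h b σ hσ]
  congr 1
  rw [map_mul, map_mul, map_pow, rename_X, h2, rename_Ec Q h _ h1, h2, hF _ h1]

end Vale.Agent.P291.HX.S3
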